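import Vale.Agent.P024.H114.Lay

/-!
P024, block [KILL]: a continuous character with values in `ℤ_pˣ` of an open subgroup of a Galois
group is trivial up to torsion on the inertia groups outside `p`; hence its conjugate by a
Frobenius element agrees with it on the decomposition group, up to torsion.
-/

namespace Vale.Agent.P024.H244.Kill

open scoped NumberField
open IsDedekindDomain NumberField Vale.Agent.P024

section Top

variable {F E : Type*} [Field F] [Field E] [Algebra F E]

/-- The inclusion of `Gal(E/K)` in `Gal(E/F)` is continuous. -/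
theorem continuous_fixingSubgroupEquiv_symm [Algebra.IsAlgebraic F E] (K : IntermediateField F E)
    [FiniteDimensional F K] :
    Continuous (IntermediateField.fixingSubgroupEquiv K).symm := by
  have h : Continuous ((IntermediateField.fixingSubgroupEquiv K).symm :
      (E ≃ₐ[K] E) →* K.fixingSubgroup) := by
    apply continuous_of_continuousAt_one
    rw [ContinuousAt, map_one, nhds_subtype_eq_comap, Filter.tendsto_comap_iff]
    intro U hU
    have hU' : U ∈ nhds (1 : E ≃ₐ[F] E) := hU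
    rw [krullTopology_mem_nhds_one_iff] at hU'
    obtain ⟨L, hL, hLU⟩ := hU'
    rw [Filter.mem_map, krullTopology_mem_nhds_one_iff]
    have hfin : FiniteDimensional F (K ⊔ L : IntermediateField F E) :=
      IntermediateField.finiteDimensional_sup K L
    have hle : K ≤ K ⊔ L := le_sup_left
    refine ⟨IntermediateField.extendScalars hle, ?_, ?_⟩
    · have h1 : FiniteDimensional F (IntermediateField.extendScalars hle) := hfin
      exact FiniteDimensional.right F K _
    · intro g hg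
      apply hLU
      rw [SetLike.mem_coe, IntermediateField.mem_fixingSubgroup_iff] at hg ⊢
      intro x hx
      exact hg x ((le_sup_right : L ≤ K ⊔ L) hx)
  exact h

end Top

section

variable {F E : Type*} [Field F] [NumberField F] [Field E] [Algebra F E] [IsGalois F E]
  [CharZero E] [Algebra.IsAlgebraic ℚ E]

/-- Inertia outside `p` is killed up to torsion, open subgroups. -/
theorem inertia_killed_sub {p : ℕ} [hp : Fact p.Prime] (hp2 : p ≠ 2)
    (V : Subgroup (E ≃ₐ[F] E)) (hV : IsOpen (V : Set (E ≃ₐ[F] E))) (θ : V →* ℤ_[p]ˣ)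
    (hθ : Continuous θ) (O : ValuationSubring E) (hO : O ≠ ⊤) (hpO : (p : E) ∉ O.nonunits)
    (t : V) (ht : Stab O (t : E ≃ₐ[F] E)) (ht' : ActsPow O (t : E ≃ₐ[F] E) 1) :
    θ t ^ (p - 1) = 1 := by
  have hVc : IsClosed (V : Set (E ≃ₐ[F] E)) := V.isClosed_of_isOpen hV
  obtain ⟨K, rfl⟩ : ∃ K : IntermediateField F E, V = K.fixingSubgroup :=
    ⟨IntermediateField.fixedField V,
      (InfiniteGalois.fixingSubgroup_fixedField (⟨V, hVc⟩ : ClosedSubgroup (E ≃ₐ[F] E))).symm⟩
  have hfd : FiniteDimensional F K := by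
    rw [← InfiniteGalois.isOpen_iff_finite]
    exact hV
  have hK : NumberField K := NumberField.of_module_finite F K
  let c := IntermediateField.fixingSubgroupEquiv K
  let ψ : (E ≃ₐ[K] E) →* ℤ_[p]ˣ := θ.comp (c.symm : (E ≃ₐ[K] E) →* K.fixingSubgroup)
  have hψ : Continuous ψ := hθ.comp (continuous_fixingSubgroupEquiv_symm K)
  have h1 : ψ (c t) = θ t := by
    show θ (c.symm (c t)) = θ t
    rw [MulEquiv.symm_apply_apply]
  rw [← h1]
  exact H114.Lay.inertia_killed hp2 ψ hψ O hO hpO (c t) ht ht'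

omit [NumberField F] [IsGalois F E] [CharZero E] [Algebra.IsAlgebraic ℚ E] in
/-- The commutator of a Frobenius element with an element of the decomposition group is in the
inertia group. -/
theorem actsPow_comm (O : ValuationSubring E) (z y : E ≃ₐ[F] E) (hz : Stab O z) (hy : Stab O y)
    {q : ℕ} (hzq : ActsPow O z q) :
    Stab O (z⁻¹ * y * z * y⁻¹) ∧ ActsPow O (z⁻¹ * y * z * y⁻¹) 1 := by
  have hinv : ∀ g : E ≃ₐ[F] E, Stab O g → Stab O g⁻¹ := by
    intro g hg x
    have h := hg (g⁻¹ x)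
    rw [← AlgEquiv.mul_apply, mul_inv_cancel, AlgEquiv.one_apply] at h
    exact h.symm
  have hmul : ∀ g h : E ≃ₐ[F] E, Stab O g → Stab O h → Stab O (g * h) := by
    intro g h hg hh x
    rw [AlgEquiv.mul_apply, hg, hh]
  have hnon : ∀ g : E ≃ₐ[F] E, Stab O g → ∀ x : E, x ∈ O.nonunits → g x ∈ O.nonunits := by
    intro g hg x hx
    rw [ValuationSubring.mem_nonunits_iff_or] at hx ⊢
    rcases hx with hx | hx
    · left; rw [hx, map_zero]
    · right
      rw [← map_inv₀, hg]
      exact hx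
  refine ⟨hmul _ _ (hmul _ _ (hmul _ _ (hinv z hz) hy) hz) (hinv y hy), ?_⟩
  intro x hx
  rw [pow_one]
  set w : E := y⁻¹ x with hw
  have hwO : w ∈ O := (hinv y hy x).2 hx
  have hxw : x = y w := by
    rw [hw, ← AlgEquiv.mul_apply, mul_inv_cancel, AlgEquiv.one_apply]
  have hywO : y w ∈ O := (hy w).2 hwO
  -- `y (z w) - z (y w)` is in the maximal ideal
  have h1 : y (z w) - z (y w) ∈ O.nonunits := by
    have h2 : y (z w - w ^ q) ∈ O.nonunits := hnon y hy _ (hzq w hwO)
    have h3 : z (y w) - (y w) ^ q ∈ O.nonunits := hzq (y w) hywO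
    have e : y (z w) - z (y w) = y (z w - w ^ q) - (z (y w) - (y w) ^ q) := by
      rw [map_sub, map_pow]; ring
    rw [e]
    exact O.nonunits.sub_mem h2 h3
  have h4 := hnon z⁻¹ (hinv z hz) _ h1
  have e : z⁻¹ (y (z w) - z (y w)) = (z⁻¹ * y * z * y⁻¹) x - x := by
    rw [map_sub, AlgEquiv.mul_apply, AlgEquiv.mul_apply, AlgEquiv.mul_apply, ← hw, hxw]
    congr 1
    rw [← AlgEquiv.mul_apply, inv_mul_cancel, AlgEquiv.one_apply]
  rwa [e] at h4

/-- **Block [KILL].**  `z` a Frobenius element (any power `q`) at `O`, `y ∈ V` in the decomposition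
group, `y' = z⁻¹ y z ∈ V`. -/
theorem kill {p : ℕ} [hp : Fact p.Prime] (hp2 : p ≠ 2)
    (V : Subgroup (E ≃ₐ[F] E)) (hV : IsOpen (V : Set (E ≃ₐ[F] E))) (θ : V →* ℤ_[p]ˣ)
    (hθ : Continuous θ) (O : ValuationSubring E) (hO : O ≠ ⊤) (hpO : (p : E) ∉ O.nonunits)
    (z : E ≃ₐ[F] E) (hz : Stab O z) {q : ℕ} (hzq : ActsPow O z q)
    (y y' : V) (hy : Stab O (y : E ≃ₐ[F] E)) (hy' : (y' : E ≃ₐ[F] E) = z⁻¹ * y * z) :
    θ y' ^ (p - 1) = θ y ^ (p - 1) := by
  obtain ⟨h1, h2⟩ := actsPow_comm O z (y : E ≃ₐ[F] E) hz hy hzq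
  have h3 : ((y' * y⁻¹ : V) : E ≃ₐ[F] E) = z⁻¹ * y * z * (y : E ≃ₐ[F] E)⁻¹ := by
    rw [Subgroup.coe_mul, hy', Subgroup.coe_inv]
  have h4 := inertia_killed_sub hp2 V hV θ hθ O hO hpO (y' * y⁻¹) (by rw [h3]; exact h1)
    (by rw [h3]; exact h2)
  rw [map_mul, map_inv, mul_pow, inv_pow, mul_inv_eq_one] at h4
  exact h4

/-- The residue characteristic is the only prime number in the maximal ideal. -/
theorem not_mem_nonunits {E : Type*} [Field E] (O : ValuationSubring E) {p r : ℕ}
    (hp : p.Prime) (hr : r.Prime) (hrp : r ≠ p) (hrO : (r : E) ∈ O.nonunits) :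
    (p : E) ∉ O.nonunits := by
  intro hpO
  have hc : Nat.Coprime p r := (Nat.coprime_primes hp hr).2 (Ne.symm hrp)
  have h1 : (1 : ℤ) = p * Nat.gcdA p r + r * Nat.gcdB p r := by
    rw [← Nat.gcd_eq_gcd_ab, hc]; rfl
  have h2 : (1 : E) = (p : E) * ((Nat.gcdA p r : ℤ) : E) + (r : E) * ((Nat.gcdB p r : ℤ) : E) := by
    exact_mod_cast congrArg (Int.cast : ℤ → E) h1
  have h3 : ∀ (a : E) (n : ℤ), a ∈ O.nonunits → a * (n : E) ∈ O.nonunits := by
    intro a n ha
    rw [ValuationSubring.mem_nonunits_iff] at ha ⊢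
    rw [map_mul]
    have h4 : O.valuation (n : E) ≤ 1 := (O.valuation_le_one_iff _).2 (intCast_mem O n)
    exact lt_of_le_of_lt (mul_le_of_le_one_right' h4) ha
  have h5 : (1 : E) ∈ O.nonunits := by
    rw [h2]
    exact O.nonunits.add_mem (h3 _ _ hpO) (h3 _ _ hrO)
  rw [ValuationSubring.mem_nonunits_iff, map_one] at h5
  exact lt_irrefl _ h5

end

end Vale.Agent.P024.H244.Kill
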