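import Vale.Agent.P024.H244.Kill
import Vale.Agent.P024.H566.Rel

/-!
P024, block [KILL] for the character `Psi` of [REL].
-/

namespace Vale.Agent.P024.H244.Kill

open scoped NumberField
open IsDedekindDomain NumberField Vale.Agent.P024 Vale.Agent.P024.H566 Finset

section Group

variable {Γ S A : Type*} [Group Γ] [Group S] [CommGroup A]

/-- `act g θ` depends only on `g` modulo `S₂`. -/
theorem act_congr {S₂ : Subgroup S} [S₂.Normal] {g h : S} (hgh : g⁻¹ * h ∈ S₂) (θ : S₂ →* A) :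
    act g θ = act h θ := by
  ext y
  rw [act_apply, act_apply]
  have h1 : (MulAut.conjNormal h⁻¹ y : S₂) =
      ⟨g⁻¹ * h, hgh⟩⁻¹ * (MulAut.conjNormal g⁻¹ y) * ⟨g⁻¹ * h, hgh⟩ := by
    apply Subtype.ext
    rw [MulAut.conjNormal_apply, Subgroup.coe_mul, Subgroup.coe_mul, Subgroup.coe_inv,
      MulAut.conjNormal_apply]
    show h⁻¹ * y * h⁻¹⁻¹ = (g⁻¹ * h)⁻¹ * (g⁻¹ * y * g⁻¹⁻¹) * (g⁻¹ * h)
    group
  rw [h1, map_mul θ, map_mul θ, map_inv θ, mul_right_comm, inv_mul_cancel, one_mul]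

/-- `Psi` depends only on `φ` modulo `GM`. -/
theorem Psi_congr {GM : Subgroup Γ} [GM.Normal] {S₂ : Subgroup S} [S₂.Normal] (aM : GM →* S₂) (χ : S₂ →* A)
    {φ f : Γ} (h : φ⁻¹ * f ∈ GM) (e : ℕ) : Psi aM χ φ e = Psi aM χ f e := by
  ext x
  rw [Psi_apply, Psi_apply]
  refine Finset.prod_congr rfl fun i _ => ?_
  have hm : ∀ i : ℕ, (φ ^ i)⁻¹ * f ^ i ∈ GM := by
    intro i
    induction i with
    | zero => simp [GM.one_mem]
    | succ i ih =>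
      have e1 : (φ ^ (i + 1))⁻¹ * f ^ (i + 1) =
          (φ⁻¹ * ((φ ^ i)⁻¹ * f ^ i) * φ⁻¹⁻¹) * (φ⁻¹ * f) := by
        rw [pow_succ, pow_succ]
        group
      rw [e1]
      exact GM.mul_mem (Subgroup.Normal.conj_mem inferInstance _ ih φ⁻¹) h
  set m : GM := ⟨(φ ^ i)⁻¹ * f ^ i, hm i⟩ with hmdef
  have h1 : (MulAut.conjNormal (f ^ i) x : GM) =
      MulAut.conjNormal (φ ^ i) m * MulAut.conjNormal (φ ^ i) x *
        (MulAut.conjNormal (φ ^ i) m)⁻¹ := by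
    apply Subtype.ext
    rw [Subgroup.coe_mul, Subgroup.coe_mul, Subgroup.coe_inv, MulAut.conjNormal_apply,
      MulAut.conjNormal_apply, MulAut.conjNormal_apply]
    show f ^ i * x * (f ^ i)⁻¹ = φ ^ i * ((φ ^ i)⁻¹ * f ^ i) * (φ ^ i)⁻¹ *
      (φ ^ i * x * (φ ^ i)⁻¹) * (φ ^ i * ((φ ^ i)⁻¹ * f ^ i) * (φ ^ i)⁻¹)⁻¹
    group
  rw [h1, map_mul, map_mul, map_inv, map_mul, map_mul, map_inv, mul_right_comm, mul_inv_cancel,
    one_mul]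

end Group

section Kill

variable {Ω E : Type*} [Field Ω] [Algebra ℚ Ω] [Field E] [Algebra ℚ E] [IsGalois ℚ E]

/-- `(act z θ / θ) ^ (p - 1)` kills the decomposition group, `z` a Frobenius element. -/
theorem act_kills {p : ℕ} [hp : Fact p.Prime] (hp2 : p ≠ 2)
    (S₂ : Subgroup (E ≃ₐ[ℚ] E)) [S₂.Normal] (hS₂ : IsOpen (S₂ : Set (E ≃ₐ[ℚ] E)))
    (θ : S₂ →* ℤ_[p]ˣ) (hθ : Continuous θ) (O : ValuationSubring E) (r : ℕ) (hr : r.Prime)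
    (hrp : r ≠ p) (hrO : (r : E) ∈ O.nonunits) (z : E ≃ₐ[ℚ] E) (hz : Stab O z) {q : ℕ}
    (hzq : ActsPow O z q) (y : S₂) (hy : Stab O (y : E ≃ₐ[ℚ] E)) :
    ((act z θ / θ) ^ (p - 1)) y = 1 := by
  have hch : CharZero E := charZero_of_injective_algebraMap (algebraMap ℚ E).injective
  have halg : @Algebra.IsAlgebraic ℚ E _ _ DivisionRing.toRatAlgebra := by
    convert (inferInstance : Algebra.IsAlgebraic ℚ E)
    exact Subsingleton.elim _ _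
  have hO : O ≠ ⊤ := by
    rintro rfl
    rw [ValuationSubring.mem_nonunits_iff_or] at hrO
    rcases hrO with h | h
    · exact hr.ne_zero (by exact_mod_cast h)
    · exact h trivial
  have hpO := not_mem_nonunits O hp.out hr hrp hrO
  have h1 := kill hp2 S₂ hS₂ θ hθ O hO hpO z hz hzq y (MulAut.conjNormal z⁻¹ y) hy (by
    rw [MulAut.conjNormal_apply, inv_inv])
  show (θ (MulAut.conjNormal z⁻¹ y) / θ y) ^ (p - 1) = 1
  rw [div_pow, h1, div_self']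

omit [IsGalois ℚ E] in
/-- **Block [KILL] for `Psi`**: if `χ` kills `Stab O₂ ∩ S₂` and `a (Stab O ∩ GM) ≤ Stab O₂` then
`Psi` kills `Stab O ∩ GM`. -/
theorem Psi_kills {A : Type*} [CommGroup A] (GM : Subgroup (Ω ≃ₐ[ℚ] Ω)) [GM.Normal]
    (S₂ : Subgroup (E ≃ₐ[ℚ] E)) [S₂.Normal] (aM : GM →* S₂) (χ : S₂ →* A)
    (O : ValuationSubring Ω)
    (O₂ : ValuationSubring E)
    (haO : ∀ x : GM, Stab O (x : Ω ≃ₐ[ℚ] Ω) → Stab O₂ ((aM x : S₂) : E ≃ₐ[ℚ] E))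
    (hχ : ∀ y : S₂, Stab O₂ (y : E ≃ₐ[ℚ] E) → χ y = 1)
    (φ : Ω ≃ₐ[ℚ] Ω) (hφ : Stab O φ) (e : ℕ) (x : GM) (hx : Stab O (x : Ω ≃ₐ[ℚ] Ω)) :
    Psi aM χ φ e x = 1 := by
  rw [Psi_apply]
  refine Finset.prod_eq_one fun i _ => hχ _ (haO _ ?_)
  rw [MulAut.conjNormal_apply]
  have hpow : ∀ i : ℕ, Stab O (φ ^ i) := by
    intro i
    induction i with
    | zero => intro x; rw [pow_zero, AlgEquiv.one_apply]
    | succ i ih => intro x; rw [pow_succ, AlgEquiv.mul_apply, ih, hφ]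
  intro w
  rw [AlgEquiv.mul_apply, AlgEquiv.mul_apply, hpow, hx]
  have h := hpow i ((φ ^ i)⁻¹ w)
  rw [← AlgEquiv.mul_apply, mul_inv_cancel, AlgEquiv.one_apply] at h
  exact h.symm

/-- The whole: `f`, `g` only have to agree with the Frobenius elements `φ`, `z` modulo `GM`,
`S₂`. -/
theorem Psi_kills_of {p : ℕ} [hp : Fact p.Prime] (hp2 : p ≠ 2) (GM : Subgroup (Ω ≃ₐ[ℚ] Ω))
    [GM.Normal] (S₂ : Subgroup (E ≃ₐ[ℚ] E)) [S₂.Normal] (hS₂ : IsOpen (S₂ : Set (E ≃ₐ[ℚ] E)))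
    (aM : GM →* S₂) (θ : S₂ →* ℤ_[p]ˣ) (hθ : Continuous θ) (O : ValuationSubring Ω)
    (O₂ : ValuationSubring E)
    (haO : ∀ x : GM, Stab O (x : Ω ≃ₐ[ℚ] Ω) → Stab O₂ ((aM x : S₂) : E ≃ₐ[ℚ] E))
    (r : ℕ) (hr : r.Prime) (hrp : r ≠ p) (hrO : (r : E) ∈ O₂.nonunits)
    (z g : E ≃ₐ[ℚ] E) (hz : Stab O₂ z) {q : ℕ} (hzq : ActsPow O₂ z q) (hzg : z⁻¹ * g ∈ S₂)
    (φ f : Ω ≃ₐ[ℚ] Ω) (hφ : Stab O φ) (hφf : φ⁻¹ * f ∈ GM) (e : ℕ) (x : GM)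
    (hx : Stab O (x : Ω ≃ₐ[ℚ] Ω)) :
    Psi aM ((act g θ / θ) ^ (p - 1)) f e x = 1 := by
  rw [← Psi_congr aM _ hφf, ← act_congr hzg]
  exact Psi_kills GM S₂ aM _ O O₂ haO
    (fun y hy => act_kills hp2 S₂ hS₂ θ hθ O₂ r hr hrp hrO z hz hzq y hy) φ hφ e x hx

end Kill

end Vale.Agent.P024.H244.Kill
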