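import Vale.Agent.P024.M4.Spec
import Vale.Agent.P024.H244.PsiKill

/-!
P024, block [REL], literal form `M4.PropREL`, from the statement `NormFin` (379's `norm_fin`).
-/

namespace Vale.Agent.P024.H244.Kill

open scoped NumberField
open IsDedekindDomain NumberField Vale.Agent.P024 Vale.Agent.P024.H566 Finset

/-- The statement of 379's `norm_fin`. -/
def NormFin.{u} : Prop := ∀ (Ω : Type u) [Field Ω] [Algebra ℚ Ω] [IsAlgClosure ℚ Ω] (p : ℕ)
  [Fact p.Prime], p ≠ 2 → ∀ (H : Subgroup (Ω ≃ₐ[ℚ] Ω)) (hn : H.Normal),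
  IsOpen (H : Set (Ω ≃ₐ[ℚ] Ω)) → ∀ ψ : H →* ℤ_[p]ˣ, Continuous ψ → ∀ f : Ω ≃ₐ[ℚ] Ω,
  (∀ x : H, ψ ⟨f * x * f⁻¹, hn.conj_mem _ x.2 f⟩ = ψ x) → ∀ R : Set ℕ, R.Infinite →
  (∀ r ∈ R, r.Prime ∧ ∃ (O : ValuationSubring Ω) (φ : Ω ≃ₐ[ℚ] Ω), (r : Ω) ∈ O.nonunits ∧
    φ⁻¹ * f ∈ H ∧ (∀ x ∈ O, φ x - x ^ r ∈ O.nonunits) ∧
    (∀ s : H, (∀ x, (s : Ω ≃ₐ[ℚ] Ω) x ∈ O ↔ x ∈ O) → ψ s = 1)) →
  ∃ m : ℕ, 0 < m ∧ ∀ x, ψ x ^ m = 1

section Top

variable {F E : Type*} [Field F] [Field E] [Algebra F E]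

/-- The identification of the fixing subgroup with `Gal(E/K)` is continuous. -/
theorem continuous_fixingSubgroupEquiv [Algebra.IsAlgebraic F E] (K : IntermediateField F E)
    [FiniteDimensional F K] :
    Continuous (IntermediateField.fixingSubgroupEquiv K) := by
  have h : Continuous ((IntermediateField.fixingSubgroupEquiv K) :
      K.fixingSubgroup →* (E ≃ₐ[K] E)) := by
    apply continuous_of_continuousAt_one
    rw [ContinuousAt, map_one, nhds_subtype_eq_comap]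
    intro U hU
    rw [krullTopology_mem_nhds_one_iff] at hU
    obtain ⟨L, hL, hLU⟩ := hU
    rw [Filter.mem_map, Filter.mem_comap]
    have hfin : FiniteDimensional F L := FiniteDimensional.trans F K L
    have hfin' : FiniteDimensional F (L.restrictScalars F) := hfin
    refine ⟨((L.restrictScalars F).fixingSubgroup : Set (E ≃ₐ[F] E)), ?_, ?_⟩
    · exact (krullTopology_mem_nhds_one_iff F E _).2 ⟨L.restrictScalars F, hfin', subset_rfl⟩
    · intro g hg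
      apply hLU
      rw [SetLike.mem_coe, IntermediateField.mem_fixingSubgroup_iff]
      intro x hx
      have hg' : (g : E ≃ₐ[F] E) ∈ (L.restrictScalars F).fixingSubgroup := hg
      rw [IntermediateField.mem_fixingSubgroup_iff] at hg'
      exact hg' x hx
  exact h

end Top

section

/-- `act z θ / θ` kills the decomposition group, `θ` unramified outside `p`. -/
theorem act_kills_unr {E : Type*} [Field E] [CharZero E] {A : Type*} [CommGroup A] {p : ℕ}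
    (hp : p.Prime) (V : Subgroup (E ≃ₐ[ℚ] E)) [V.Normal]
    (θ : V →* A) (hθ : M4.UnrOut p θ) (O : ValuationSubring E) (hO : O ≠ ⊤) (r : ℕ)
    (hr : r.Prime) (hrp : r ≠ p) (hrO : (r : E) ∈ O.nonunits) (z : E ≃ₐ[ℚ] E) (hz : Stab O z)
    {q : ℕ} (hzq : ActsPow O z q) (y : V) (hy : Stab O (y : E ≃ₐ[ℚ] E)) :
    (act z θ / θ) y = 1 := by
  have hpO := not_mem_nonunits O hp hr hrp hrO
  obtain ⟨h1, h2⟩ := actsPow_comm O z (y : E ≃ₐ[ℚ] E) hz hy hzq
  have h3 : ((MulAut.conjNormal z⁻¹ y * y⁻¹ : V) : E ≃ₐ[ℚ] E) =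
      z⁻¹ * y * z * (y : E ≃ₐ[ℚ] E)⁻¹ := by
    rw [Subgroup.coe_mul, MulAut.conjNormal_apply, Subgroup.coe_inv, inv_inv]
  have h4 := hθ O hO hpO (MulAut.conjNormal z⁻¹ y * y⁻¹) (by rw [h3]; exact h1)
    (by rw [h3]; exact h2)
  show θ (MulAut.conjNormal z⁻¹ y) / θ y = 1
  rw [map_mul, map_inv θ] at h4
  rw [div_eq_mul_inv, h4]

end

/-- **Block [REL]**, literal, from `norm_fin`. -/
theorem propREL_of.{u, v} (hnf : NormFin.{u}) : M4.PropREL.{u, v} := by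
  intro E₁ E₂ _ _ _ _ _ _ _ hE₂ F _ a ha hopen p hp hp2 H V hH hV hHo hVo aH haH f z e he hfe
    hinf θ hθ hunr
  have hcl : IsAlgClosure ℚ E₁ := ⟨inferInstance, inferInstance⟩
  set χ : V →* ℤ_[p]ˣ := act z θ / θ with hχ
  set ψ : H →* ℤ_[p]ˣ := Psi aH χ f e with hψdef
  -- continuity
  have hHF : ∀ x : H, (x : E₁ ≃ₐ[ℚ] E₁) ∈ F.fixingSubgroup := by
    intro x
    obtain ⟨s, hs, -⟩ := haH x
    rw [← hs, IntermediateField.mem_fixingSubgroup_iff]
    intro y hy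
    exact s.commutes ⟨y, hy⟩
  have haHc : Continuous aH := by
    have h1 : ∀ x : H, (aH x : E₂ ≃ₐ[ℚ] E₂) =
        a (IntermediateField.fixingSubgroupEquiv F ⟨x, hHF x⟩) := by
      intro x
      obtain ⟨s, hs, hsa⟩ := haH x
      rw [← hsa]
      congr 1
      ext y
      exact DFunLike.congr_fun hs y
    rw [continuous_induced_rng]
    have h2 : Continuous fun x : H => a (IntermediateField.fixingSubgroupEquiv F ⟨x, hHF x⟩) :=
      ha.comp ((continuous_fixingSubgroupEquiv F).comp (continuous_subtype_val.subtype_mk _))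
    exact h2.congr fun x => (h1 x).symm
  have hconjV : ∀ g : E₂ ≃ₐ[ℚ] E₂, Continuous fun y : V => (MulAut.conjNormal g y : V) := by
    intro g
    rw [continuous_induced_rng]
    have h1 : Continuous fun y : V => g * (y : E₂ ≃ₐ[ℚ] E₂) * g⁻¹ :=
      (continuous_const.mul continuous_subtype_val).mul continuous_const
    exact h1.congr fun y => (MulAut.conjNormal_apply g y).symm
  have hconjH : ∀ g : E₁ ≃ₐ[ℚ] E₁, Continuous fun y : H => (MulAut.conjNormal g y : H) := by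
    intro g
    rw [continuous_induced_rng]
    have h1 : Continuous fun y : H => g * (y : E₁ ≃ₐ[ℚ] E₁) * g⁻¹ :=
      (continuous_const.mul continuous_subtype_val).mul continuous_const
    exact h1.congr fun y => (MulAut.conjNormal_apply g y).symm
  have hχc : Continuous χ := by
    have h1 : Continuous fun y : V => θ (MulAut.conjNormal z⁻¹ y) / θ y :=
      (hθ.comp (hconjV z⁻¹)).div' hθ
    exact h1
  have hψc : Continuous ψ := by
    have h1 : Continuous fun x : H => ∏ i ∈ range e, χ (aH (MulAut.conjNormal (f ^ i) x)) :=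
      continuous_finsetProd _ fun i _ => hχc.comp (haHc.comp (hconjH (f ^ i)))
    exact h1.congr fun x => (Psi_apply aH χ f e x).symm
  -- invariance
  have hinv : ∀ x : H, ψ ⟨f * x * f⁻¹, hH.conj_mem _ x.2 f⟩ = ψ x := by
    intro x
    have h1 := Psi_conj (aM := aH) χ hfe x
    rw [← h1]
    rfl
  -- the residue characteristics
  set R : Set ℕ := {r | ∃ v : HeightOneSpectrum (𝓞 F), ∃ O O₂ r₂ φ ζ, IsCenter O v ∧
    M4.Pair a p O O₂ r r₂ φ ζ ∧ φ * f⁻¹ ∈ H ∧ ζ * z⁻¹ ∈ V} with hRdef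
  have hR : R.Infinite := by
    intro hfin
    refine hinf ((finite_above_set F hfin).subset ?_)
    rintro v ⟨O, O₂, r, r₂, φ, ζ, hv, hpair, h1, h2⟩
    refine ⟨r, ⟨v, O, O₂, r₂, φ, ζ, hv, hpair, h1, h2⟩, hpair.prime₁, ?_⟩
    rw [hv]
    have := hpair.mem₁
    simpa using this
  obtain ⟨m, hm, hψm⟩ := hnf E₁ p hp2 H hH hHo ψ hψc f hinv R hR (by
    rintro r ⟨v, O, O₂, r₂, φ, ζ, hv, hpair, h1, h2⟩
    refine ⟨hpair.prime₁, O, φ, hpair.mem₁, ?_, hpair.acts₁, ?_⟩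
    · have h3 : φ⁻¹ * f = φ⁻¹ * (φ * f⁻¹)⁻¹ * φ⁻¹⁻¹ := by group
      rw [h3]
      exact hH.conj_mem _ (H.inv_mem h1) _
    · intro s hs
      have h3 : φ⁻¹ * f ∈ H := by
        have h3 : φ⁻¹ * f = φ⁻¹ * (φ * f⁻¹)⁻¹ * φ⁻¹⁻¹ := by group
        rw [h3]
        exact hH.conj_mem _ (H.inv_mem h1) _
      have h4 : ζ⁻¹ * z ∈ V := by
        have h3 : ζ⁻¹ * z = ζ⁻¹ * (ζ * z⁻¹)⁻¹ * ζ⁻¹⁻¹ := by group
        rw [h3]
        exact hV.conj_mem _ (V.inv_mem h2) _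
      rw [hψdef, ← Psi_congr aH χ h3, hχ, ← act_congr h4]
      refine Psi_kills H V aH _ O O₂ ?_ ?_ φ hpair.stab₁ e s hs
      · intro x hx
        obtain ⟨t, ht, hta⟩ := haH x
        rw [← hta]
        refine hpair.maps t fun y => ?_
        have h5 : t y = (x : E₁ ≃ₐ[ℚ] E₁) y := DFunLike.congr_fun ht y
        rw [h5]
        exact hx y
      · intro y hy
        exact act_kills_unr hp.out V θ hunr O₂ hpair.ne₂ r₂ hpair.prime₂ hpair.ne_p₂ hpair.mem₂
          ζ hpair.stab₂ hpair.acts₂ y hy)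
  refine ⟨m, hm, fun x => ?_⟩
  rw [← hψm x]
  congr 1
  rw [hψdef, Psi_apply]
  refine Finset.prod_congr rfl fun i _ => ?_
  have h1 : (MulAut.conjNormal (f ^ i) x : H) =
      ⟨f ^ i * x * (f ^ i)⁻¹, hH.conj_mem x x.2 (f ^ i)⟩ :=
    Subtype.ext (MulAut.conjNormal_apply _ _)
  rw [h1]
  show _ = θ (MulAut.conjNormal z⁻¹ _) / θ _
  congr 2

end Vale.Agent.P024.H244.Kill
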