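import Vale.Agent.P024.H244.PropREL
import Vale.Agent.P024.H379.Norm

/-!
P024: the literal block [REL].
-/

namespace Vale.Agent.P024.H244.Kill

theorem normFin.{u} : NormFin.{u} :=
  fun _ _ _ _ p _ hp2 H hn hH ψ hψ f hinv R hR hkill =>
    H379.Norm.norm_fin p hp2 H hn hH ψ hψ f hinv R hR hkill

/-- **Block [REL]**, literal. -/
theorem propREL.{u, v} : M4.PropREL.{u, v} := propREL_of normFin

end Vale.Agent.P024.H244.Kill
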